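import Vale.Agent.P099.Main

open MeasureTheory

namespace Vale.Agent.Results.P099.WeakMixing

open Vale.Agent.P099

/-- For every irrational triangle the billiard flow preserves the Liouville probability measure,
is ergodic, and is weakly mixing (its Cartesian square is ergodic). -/
theorem result (p : Fin 3 → ℂ) (hp : AffineIndependent ℝ p) (hirr : ¬ IsRationalTriangle p) :
    IsProbabilityMeasure (liouville p) ∧
    (∀ t : ℝ, MeasurePreserving (flow p t) (liouville p) (liouville p)) ∧
    IsErgodicFlow (liouville p) (flow p) ∧
    IsErgodicFlow ((liouville p).prod (liouville p))
      (fun t q => (flow p t q.1, flow p t q.2)) :=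
  main p hp hirr

end Vale.Agent.Results.P099.WeakMixing
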